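import Vale.Agent.P171.Limit
import Mathlib.Analysis.SpecialFunctions.Pow.Real
import Mathlib.Analysis.SpecialFunctions.ExpDeriv

/-!
A stable tempered radial pair potential in three dimensions whose pressure has a kink.
-/

open MeasureTheory Finset Filter Topology
open scoped ENNReal Nat

namespace Vale.Agent.P171

/-- The potential as a function of the distance. -/
noncomputable def potential (r : ℝ) : ℝ := core height r - attraction r

theorem potential_pot (a b : Pt) : potential (dist a b) = pot height attraction a b := rfl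

theorem height_nonneg : 0 ≤ height := by
  unfold height gap attr amax; norm_num

theorem measurable_potential : Measurable potential :=
  (Measurable.ite measurableSet_Iio measurable_const measurable_const).sub
    adm_attraction.prof.anti.measurable

theorem abs_potential_le {r : ℝ} (hr : 0 ≤ r) : |potential r| ≤ height + attraction 0 := by
  have h1 := adm_attraction.prof.anti hr
  have h2 := adm_attraction.prof.nonneg r
  have h3 : 0 ≤ core height r ∧ core height r ≤ height := by
    have := height_nonneg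
    unfold core; split_ifs <;> constructor <;> linarith
  rw [abs_le, potential]
  constructor <;> linarith [h3.1, h3.2]

theorem potential_tempered {r : ℝ} (hr : 1 ≤ r) :
    potential r ≤ 1 * r ^ (-(3 : ℝ) - 1) := by
  have h1 : potential r = -attraction r := by simp [potential, core, not_lt.2 hr]
  have h2 := adm_attraction.prof.nonneg r
  have h3 : 0 ≤ r ^ (-(3 : ℝ) - 1) := Real.rpow_nonneg (by linarith) _
  linarith

/-- The pair sum over `i < j` is the energy of the configuration. -/
theorem pair_sum_eq_en {N : ℕ} (x : Fin N → Pt) :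
    ∑ i, ∑ j ∈ Ioi i, potential (dist (x i) (x j)) = en (pot height attraction) (conf x) := by
  classical
  simp only [potential_pot]
  set w : Fin N → Fin N → ℝ := fun i j => pot height attraction (x i) (x j) with hw
  have hsym : ∀ i j, w i j = w j i := fun i j => pot_symm _ _ _ _
  have h1 : ∀ i, ∑ j, w i j = w i i + (∑ j ∈ Ioi i, w i j + ∑ j ∈ Iio i, w i j) := by
    intro i
    have hd : Disjoint (Ioi i) (Iio i) := by
      rw [disjoint_left]
      exact fun j hj hj' => lt_asymm (mem_Ioi.1 hj) (mem_Iio.1 hj')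
    rw [← sum_union hd, ← sum_insert (by simp)]
    refine sum_congr ?_ fun _ _ => rfl
    ext j
    rcases lt_trichotomy i j with h | rfl | h
    · simp [h, h.ne']
    · simp
    · simp [h, h.ne]
  have h2 : ∑ i, ∑ j ∈ Iio i, w i j = ∑ i, ∑ j ∈ Ioi i, w i j := by
    refine Eq.trans ?_ (sum_congr rfl fun i _ => sum_congr rfl fun j _ => hsym j i)
    exact sum_comm' fun i j => by simp
  rw [en_conf]
  show ∑ i, ∑ j ∈ Ioi i, w i j = (∑ i, ∑ j, w i j - ∑ i, w i i) / 2
  simp only [h1, sum_add_distrib, h2]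
  ring

theorem potential_stable {N : ℕ} (x : Fin N → Pt) :
    -(attr / 2) * (N : ℝ) ≤ ∑ i, ∑ j ∈ Ioi i, potential (dist (x i) (x j)) := by
  classical
  rw [pair_sum_eq_en]
  set J := (univ : Finset (Fin N)).image fun i => idx 0 (1 / 2) (x i) with hJ
  have hs : ∀ a ∈ conf x, ∃ k ∈ J, a ∈ cell 0 (1 / 2) k := fun a ha => by
    obtain ⟨i, rfl⟩ := mem_conf.1 ha
    exact ⟨_, mem_image_of_mem _ (mem_univ i), (mem_cell_iff_idx (by norm_num)).2 rfl⟩
  have hA := adm_attraction
  have h := hA.prof.stable (h := height) (by unfold height; linarith [gap_pos]) J hs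
  have hsq : (Multiset.card (conf x) : ℝ) ≤ ∑ k ∈ J, count (cell 0 (1 / 2) k) (conf x) ^ 2 := by
    rw [← sum_count J (fun i _ j _ hij => disjoint_cell (by norm_num) hij) (conf x) hs]
    refine sum_le_sum fun k _ => ?_
    unfold count
    exact_mod_cast Nat.le_self_pow two_ne_zero _
  have hpos : 0 ≤ (height - attr) / 2 *
      (∑ k ∈ J, count (cell 0 (1 / 2) k) (conf x) ^ 2 - (Multiset.card (conf x) : ℝ)) :=
    mul_nonneg (by unfold height; linarith [gap_pos]) (sub_nonneg.2 hsq)
  rw [card_conf, Fintype.card_fin] at h hpos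
  linarith

/-- The closed cube. -/
def closedCube (L : ℝ) : Set Pt := {p | ∀ i, p i ∈ Set.Icc 0 L}

theorem cubeAt_subset_closedCube (L : ℝ) : cubeAt (0 : Pt) L ⊆ closedCube L := fun p hp i => by
  have := hp i
  simp only [PiLp.zero_apply, zero_add] at this
  exact ⟨this.1, this.2.le⟩

theorem closedCube_subset_cubeAt (L : ℝ) : closedCube L ⊆ cubeAt (0 : Pt) (L + 1) := fun p hp i => by
  simp only [PiLp.zero_apply, zero_add]
  exact ⟨(hp i).1, by linarith [(hp i).2]⟩

theorem partition_eq_GP {L z : ℝ} (hz : 0 < z) (hL : 0 ≤ L) :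
    (∑' N : ℕ, ENNReal.ofReal (z ^ N / (N ! : ℝ)) *
        ∫⁻ x in {x : Fin N → Pt | ∀ i c, x i c ∈ Set.Icc 0 L},
          ENNReal.ofReal (Real.exp (-(1 * ∑ i, ∑ j ∈ Ioi i, potential (dist (x i) (x j))))))
      = GP (volume.restrict (closedCube L)) (wgt (Real.log z) (pot height attraction)) := by
  have : Fact (volume (closedCube L) < ⊤) := ⟨lt_of_le_of_lt (measure_mono (closedCube_subset_cubeAt L))
    (by rw [volume_cubeAt 0 (by linarith)]; exact ENNReal.ofReal_lt_top)⟩
  refine tsum_congr fun N => ?_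
  have hset : {x : Fin N → Pt | ∀ i c, x i c ∈ Set.Icc 0 L}
      = Set.univ.pi fun _ => closedCube L := by ext x; simp [closedCube]
  have hw : ∀ x : Fin N → Pt, wgt (Real.log z) (pot height attraction) (conf x)
      = ENNReal.ofReal (z ^ N) * ENNReal.ofReal
          (Real.exp (-(1 * ∑ i, ∑ j ∈ Ioi i, potential (dist (x i) (x j))))) := by
    intro x
    rw [pair_sum_eq_en, wgt, card_conf, Fintype.card_fin, one_mul,
      ← ENNReal.ofReal_mul (by positivity), sub_eq_add_neg, Real.exp_add, mul_comm (Real.log z),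
      Real.exp_nat_mul, Real.exp_log hz]
  rw [term, hset, ← Measure.restrict_pi_pi]
  simp only [hw]
  rw [lintegral_const_mul' _ _ ENNReal.ofReal_ne_top, ← mul_assoc, ← volume_pi]
  congr 1
  rw [div_eq_inv_mul, ENNReal.ofReal_mul (by positivity), ENNReal.ofReal_inv_of_pos (by positivity),
    ENNReal.ofReal_natCast]

theorem partition_limit (lam : ℝ) :
    (∀ L : ℝ, 0 ≤ L →
      GP (volume.restrict (closedCube L)) (wgt lam (pot height attraction)) ≠ ⊤) ∧
    Tendsto (fun L : ℝ => logZ (volume.restrict (closedCube L)) lam (pot height attraction) / L ^ 3)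
      atTop (𝓝 (pressure height attraction lam)) := by
  have hA := adm_attraction
  set P := pressure height attraction lam
  set G := fun D : Set Pt => GP (volume.restrict D) (wgt lam (pot height attraction))
  have hv : ∀ {L : ℝ}, 0 ≤ L → volume (cubeAt (0 : Pt) L) ≠ ⊤ := fun hL => by
    rw [volume_cubeAt 0 hL]; exact ENNReal.ofReal_ne_top
  have hup : ∀ L : ℝ, 0 ≤ L → G (closedCube L) ≤ G (cubeAt 0 (L + 1)) := fun L hL =>
    GP_restrict_mono (closedCube_subset_cubeAt L) (hv (by linarith)) _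
  have hlow : ∀ L : ℝ, 0 ≤ L → G (cubeAt 0 L) ≤ G (closedCube L) := fun L hL =>
    GP_restrict_mono (cubeAt_subset_closedCube L)
      (ne_top_of_le_ne_top (hv (L := L + 1) (by linarith))
        (measure_mono (closedCube_subset_cubeAt L))) _
  have hfin : ∀ L : ℝ, 0 ≤ L → G (closedCube L) ≠ ⊤ := fun L hL =>
    ne_top_of_le_ne_top (hA.GP_ne_top lam (by linarith : (0 : ℝ) ≤ L + 1)) (hup L hL)
  refine ⟨hfin, tendsto_order.2 ⟨fun c hc => ?_, fun c hc => ?_⟩⟩
  · filter_upwards [hA.eventually_ge lam (δ := (P - c) / 2) (by linarith),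
      eventually_gt_atTop 0] with L h1 hL
    have h2 : logZc height attraction L lam
        ≤ logZ (volume.restrict (closedCube L)) lam (pot height attraction) :=
      le_logZ_of_le_GP (hfin L hL.le) (by
        rw [logZc, ← GP_wgt_eq_exp (hA.GP_ne_top lam hL.le)]; exact hlow L hL.le)
    calc c < P - (P - c) / 2 := by linarith
      _ ≤ _ := h1
      _ ≤ _ := div_le_div_of_nonneg_right h2 (by positivity)
  · have ht : Tendsto (fun L : ℝ => (1 + 2 / L) ^ 3 * P) atTop (𝓝 ((1 + 0) ^ 3 * P)) :=
      ((tendsto_const_nhds.add (tendsto_id.const_div_atTop 2)).pow 3).mul_const P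
    filter_upwards [ht.eventually (eventually_lt_nhds (show (1 + 0) ^ 3 * P < c by simpa using hc)),
      eventually_gt_atTop 0] with L h1 hL
    refine lt_of_le_of_lt ?_ h1
    have h2 : logZ (volume.restrict (closedCube L)) lam (pot height attraction)
        ≤ logZc height attraction (L + 1) lam :=
      logZ_le_of_GP_le ((hup L hL.le).trans
        (le_of_eq (GP_wgt_eq_exp (hA.GP_ne_top lam (by linarith : (0 : ℝ) ≤ L + 1)))))
    have h3 := hA.le_pressure lam (show (0 : ℝ) < L + 1 by linarith)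
    rw [div_le_iff₀ (by positivity)]
    refine (h2.trans h3).trans (le_of_eq ?_)
    field_simp
    ring

end Vale.Agent.P171

open Vale.Agent.P171 in
/-- There is a stable tempered radial pair potential on three-dimensional space whose pressure is
not differentiable in the activity. -/
theorem Vale.Agent.Results.P171.PhaseTransition.result :
    ∃ u : ℝ → ℝ,
      Measurable u ∧
      (∀ K : Set ℝ, IsCompact K → K ⊆ Set.Ioi 0 → ∃ M : ℝ, ∀ r ∈ K, |u r| ≤ M) ∧
      (∃ B : ℝ, ∀ (N : ℕ) (x : Fin N → EuclideanSpace ℝ (Fin 3)), Function.Injective x →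
        -B * (N : ℝ) ≤ ∑ i, ∑ j ∈ Finset.Ioi i, u (dist (x i) (x j))) ∧
      (∃ C ε R₀ : ℝ, 0 < C ∧ 0 < ε ∧ 0 < R₀ ∧ ∀ r, R₀ ≤ r → u r ≤ C * r ^ (-(3 : ℝ) - ε)) ∧
      ∃ β : ℝ, 0 < β ∧ ∃ Ξ : ℝ → ℝ → ℝ≥0∞, ∃ pr : ℝ → ℝ,
        (∀ L z : ℝ, 0 < L → 0 < z →
          Ξ L z = ∑' N : ℕ, ENNReal.ofReal (z ^ N / (N ! : ℝ)) *
            ∫⁻ x in {x : Fin N → EuclideanSpace ℝ (Fin 3) | ∀ i c, x i c ∈ Set.Icc 0 L},
              ENNReal.ofReal (Real.exp (-(β * ∑ i, ∑ j ∈ Finset.Ioi i, u (dist (x i) (x j)))))) ∧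
        (∀ L z : ℝ, 0 < L → 0 < z → Ξ L z ≠ ⊤) ∧
        (∀ z : ℝ, 0 < z →
          Tendsto (fun L : ℝ => Real.log (Ξ L z).toReal / L ^ 3) atTop (𝓝 (pr z))) ∧
        ∃ z₀ : ℝ, 0 < z₀ ∧ ¬ DifferentiableAt ℝ pr z₀ := by
  obtain ⟨mu, hmu⟩ := exists_kink
  refine ⟨potential, measurable_potential,
    fun K _ hK => ⟨height + attraction 0, fun r hr => abs_potential_le (Set.mem_Ioi.1 (hK hr)).le⟩,
    ⟨attr / 2, fun N x _ => potential_stable x⟩,
    ⟨1, 1, 1, one_pos, one_pos, one_pos, fun r hr => potential_tempered hr⟩, 1, one_pos,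
    fun L z => ∑' N : ℕ, ENNReal.ofReal (z ^ N / (N ! : ℝ)) *
      ∫⁻ x in {x : Fin N → EuclideanSpace ℝ (Fin 3) | ∀ i c, x i c ∈ Set.Icc 0 L},
        ENNReal.ofReal (Real.exp (-(1 * ∑ i, ∑ j ∈ Finset.Ioi i, potential (dist (x i) (x j))))),
    fun z => pressure height attraction (Real.log z), fun L z _ _ => rfl, fun L z hL hz => ?_,
    fun z hz => ?_, Real.exp mu, Real.exp_pos mu, fun hd => hmu ?_⟩
  · beta_reduce
    rw [partition_eq_GP hz hL.le]
    exact (partition_limit (Real.log z)).1 L hL.le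
  · refine (partition_limit (Real.log z)).2.congr' ?_
    filter_upwards [eventually_ge_atTop 0] with L hL
    beta_reduce
    rw [partition_eq_GP hz hL]
    rfl
  · have := hd.comp mu Real.differentiableAt_exp
    simpa [Function.comp_def, Real.log_exp] using this
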